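import Vale.Agent.Lib.P050.Potts

namespace Vale.Agent.Results.P050.A_PottsTargets

open Vale.Agent.Lib.P050 Finset

theorem aux (A B : Type) [Fintype A] [Fintype B] [DecidableEq A] [DecidableEq B]
    (E : Finset (A × B)) (q : ℕ) (hq : 1 ≤ q) (α β : ℝ) (hα : 0 ≤ α) (hβ : 0 < β) :
    ((∑ i : Fin q, ∑ j : Fin q, (if i = j then α else β)) / (q : ℝ) ^ 2) ^ E.card ≤
      (∑ a : A → Fin q, ∑ b : B → Fin q, ∏ e ∈ E, (if a e.1 = b e.2 then α else β))
        / (q : ℝ) ^ (Fintype.card A + Fintype.card B) := by
  classical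
  have hq0 : (0 : ℝ) < q := by exact_mod_cast hq
  set θ : ℝ := 1 - α / β with hθdef
  have hθ : θ ≤ 1 := by
    have : 0 ≤ α / β := div_nonneg hα hβ.le
    linarith
  -- the graph on `A ⊕ B`
  let emb : A × B ↪ (A ⊕ B) × (A ⊕ B) :=
    ⟨fun e => (Sum.inl e.1, Sum.inr e.2), by
      intro e e' h
      simp only [Prod.mk.injEq, Sum.inl.injEq, Sum.inr.injEq] at h
      exact Prod.ext h.1 h.2⟩
  have hside : ∀ e ∈ E.map emb, (Sum.isLeft e.1 = true ∧ Sum.isLeft e.2 = false) := by
    intro e he
    obtain ⟨e', _, rfl⟩ := Finset.mem_map.1 he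
    exact ⟨rfl, rfl⟩
  have key := potts_lower (q := q) (V := A ⊕ B) Sum.isLeft hq θ hθ (E.map emb) hside
  rw [Finset.card_map, Fintype.card_sum] at key
  -- rewrite the partition function
  have hZ : ∑ c : A ⊕ B → Fin q, wt θ (E.map emb) c
      = ∑ a : A → Fin q, ∑ b : B → Fin q,
        ∏ e ∈ E, (1 - θ * (if a e.1 = b e.2 then 1 else 0)) := by
    rw [← Fintype.sum_prod_type']
    refine Fintype.sum_equiv (Equiv.sumArrowEquivProdArrow A B (Fin q)) _ _ fun c => ?_
    unfold wt
    rw [Finset.prod_map]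
    rfl
  have hterm : ∀ (a : A → Fin q) (b : B → Fin q),
      ∏ e ∈ E, (if a e.1 = b e.2 then α else β)
        = β ^ E.card * ∏ e ∈ E, (1 - θ * (if a e.1 = b e.2 then 1 else 0)) := by
    intro a b
    rw [← Finset.prod_const, ← Finset.prod_mul_distrib]
    refine Finset.prod_congr rfl fun e _ => ?_
    split_ifs
    · rw [hθdef]; field_simp; ring
    · ring
  have havg : (∑ i : Fin q, ∑ j : Fin q, (if i = j then α else β)) / (q : ℝ) ^ 2
      = β * (1 - θ / q) := by
    have h1 : ∀ i : Fin q, ∑ j : Fin q, (if i = j then α else β) = α + ((q : ℝ) - 1) * β := by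
      intro i
      have : ∀ j : Fin q, (if i = j then α else β) = β + (if i = j then α - β else 0) := by
        intro j; split_ifs <;> ring
      simp only [this, Finset.sum_add_distrib, Finset.sum_const, Finset.card_univ,
        Fintype.card_fin, nsmul_eq_mul, Finset.sum_ite_eq, Finset.mem_univ, if_true]
      ring
    simp only [h1, Finset.sum_const, Finset.card_univ, Fintype.card_fin, nsmul_eq_mul]
    rw [hθdef]
    field_simp
    ring
  rw [havg, mul_pow, le_div_iff₀ (by positivity)]
  simp only [hterm, ← Finset.mul_sum]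
  rw [← hZ, mul_assoc]
  refine mul_le_mul_of_nonneg_left ?_ (by positivity)
  rw [mul_comm]
  exact key

/-- Sidorenko's inequality `t(H, W) ≥ (∫ W)^{e(H)}` for every bipartite graph `H` (parts `A`, `B`,
edge set `E ⊆ A × B`) and every target kernel `W` on `q` equal steps that takes one value `α ≥ 0`
on the diagonal and another value `β ≥ 0` off the diagonal. -/
theorem result (A B : Type) [Fintype A] [Fintype B] [DecidableEq A] [DecidableEq B]
    (E : Finset (A × B)) (q : ℕ) (hq : 1 ≤ q) (α β : ℝ) (hα : 0 ≤ α) (hβ : 0 ≤ β) :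
    ((∑ i : Fin q, ∑ j : Fin q, (if i = j then α else β)) / (q : ℝ) ^ 2) ^ E.card ≤
      (∑ a : A → Fin q, ∑ b : B → Fin q, ∏ e ∈ E, (if a e.1 = b e.2 then α else β))
        / (q : ℝ) ^ (Fintype.card A + Fintype.card B) := by
  rcases hβ.lt_or_eq with h | h
  · exact aux A B E q hq α β hα h
  · subst h
    have c1 : Continuous fun β : ℝ =>
        ((∑ i : Fin q, ∑ j : Fin q, (if i = j then α else β)) / (q : ℝ) ^ 2) ^ E.card := by
      refine Continuous.pow (Continuous.div_const ?_ _) _
      refine continuous_finsetSum _ fun i _ => continuous_finsetSum _ fun j _ => ?_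
      exact continuous_const.if_const _ continuous_id
    have c2 : Continuous fun β : ℝ =>
        (∑ a : A → Fin q, ∑ b : B → Fin q, ∏ e ∈ E, (if a e.1 = b e.2 then α else β))
          / (q : ℝ) ^ (Fintype.card A + Fintype.card B) := by
      refine Continuous.div_const ?_ _
      refine continuous_finsetSum _ fun a _ => continuous_finsetSum _ fun b _ =>
        continuous_finsetProd _ fun e _ => ?_
      exact continuous_const.if_const _ continuous_id
    have t1 := (c1.tendsto 0).mono_left (nhdsWithin_le_nhds (s := Set.Ioi 0))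
    have t2 := (c2.tendsto 0).mono_left (nhdsWithin_le_nhds (s := Set.Ioi 0))
    refine le_of_tendsto_of_tendsto t1 t2 ?_
    filter_upwards [self_mem_nhdsWithin] with β hβ
    exact aux A B E q hq α β hα hβ

end Vale.Agent.Results.P050.A_PottsTargets
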